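import Vale.Agent.N150L.Defs
import Vale.Agent.N150D.Fin
import Vale.Agent.N150D.Self
import Vale.Agent.N150D.Self2

/-! The definitions agree with those of the development. -/

open Filter Topology Set Real Matrix

namespace Vale.Agent.N150L

open Vale.Agent.P150 (skJ energy locField resample)
open Vale.Agent.P150.MainThm (whp_mono whp_inter)

variable {n : ℕ} {K β ε : ℝ} {g : Dis n} {L : Mat n}

theorem wt_eq (β : ℝ) (g : Dis n) (x : Cfg n) :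
    wt β g x = exp (energy (skJ β g) (fun _ => 0) x) := by
  unfold wt energy
  simp only [zero_mul, Finset.sum_const_zero, add_zero]
  rw [P150.sum_pairs, Finset.mul_sum]
  simp only [lt_irrefl, if_false, Finset.sum_const_zero, add_zero]
  refine congrArg _ (Finset.sum_congr rfl fun p _ => ?_)
  rw [if_pos p.2, if_neg p.2.asymm, add_zero, skJ, P150.gsym_pair]
  exact (fun a b c d : ℝ => (by ring : a * (b * c * d) = a * b * c * d)) _ _ _ _

theorem mu_eq (β : ℝ) (g : Dis n) : mu β g = N150D.mu β g := by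
  funext x
  simp only [mu, wt_eq]
  rfl

theorem field_eq (β : ℝ) (g : Dis n) (x : Cfg n) (i : Fin n) :
    field β g x i = locField (skJ β g) (fun _ => 0) x i := by
  unfold field locField
  rw [zero_add, Finset.mul_sum]
  refine Finset.sum_congr rfl fun j _ => ?_
  split_ifs with h
  · rw [h, show sym g i i = 0 from P150.gsym_self g i, zero_mul, mul_zero]
  · exact (mul_assoc _ _ _).symm

theorem Q_eq (β : ℝ) (g : Dis n) (i : Fin n) (x y : Cfg n) :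
    Q β g i x y = resample (skJ β g) (fun _ => 0) i (fun z => if z = y then 1 else 0) x := by
  unfold Q resample
  refine Finset.sum_congr rfl fun s _ => ?_
  rw [field_eq, mul_ite, mul_one, mul_zero]
  exact if_congr eq_comm rfl rfl

theorem heat_eq (β : ℝ) (g : Dis n) : heat β g = N150D.heat β g := by
  ext x y
  rw [heat, Matrix.sum_apply]
  refine Finset.sum_congr rfl fun i _ => ?_
  rw [Matrix.sub_apply, Q_eq, Matrix.one_apply]

theorem metro_eq (β : ℝ) (g : Dis n) : metro β g = N150D.metro β g := by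
  unfold metro
  rw [mu_eq]
  rfl

theorem like_of (h : N150D.Like K β g L) : Like K β g L := by
  unfold Like
  rw [mu_eq, heat_eq]
  exact ⟨h.1.row, h.1.rev, h.2⟩

theorem Like.to (hK : 1 ≤ K) (h : Like K β g L) : N150D.Like K β g L := by
  unfold Like at h
  rw [mu_eq, heat_eq] at h
  have h0 := N150D.Asm.rev_heat β g
  exact ⟨⟨h0.pos, h0.sum, fun x y e => nonneg_of_mul_nonneg_right
    ((h0.off x y e).trans (h.2.2 x y e).1) (one_pos.trans_le hK), h.1, h.2.1⟩, h.2.2⟩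

theorem dist_le (P : Mat n) : tv β g P ≤ ε ↔ ∀ x, N150D.tvM P (N150D.mu β g) x ≤ ε := by
  unfold tv
  rw [mu_eq]
  exact ciSup_le_iff (Finite.bddAbove_range _)

theorem tmix_eq (β : ℝ) (g : Dis n) (L : Mat n) (ε : ℝ) :
    tmix β g L ε = N150D.tmix L (N150D.mu β g) ε := by
  simp only [tmix, dist_le]
  rfl

theorem kmix_eq (β : ℝ) (g : Dis n) (P : Mat n) (ε : ℝ) :
    kmix β g P ε = N150D.kmix P (N150D.mu β g) ε := by
  simp only [kmix, dist_le]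
  rfl

theorem gap_eq (hn : 0 < n) (h : N150D.Like K β g L) : gap L = N150D.gap L (N150D.mu β g) :=
  ((N150D.zero n β g hn).2.2.2 K L h).2.2.1.csInf_eq

theorem gap_heat (hn : 0 < n) (β : ℝ) (g : Dis n) :
    gap (heat β g) = N150D.gap (N150D.heat β g) (N150D.mu β g) := by
  rw [heat_eq]
  exact gap_eq hn (((N150D.zero n β g hn).1 _).2 rfl)

theorem unif_of {P : ℕ → ℝ → ℝ → ℝ → Prop} (hK : 1 ≤ K) (h : N150D.Unif K β ε P) :
    Unif K β ε P := by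
  refine whp_mono h ?_
  filter_upwards [eventually_gt_atTop 0] with n hn g hg L hL
  rw [gap_eq hn (hL.to hK), tmix_eq, kmix_eq]
  exact hg L (hL.to hK)

theorem whp_congr {A B : ∀ n, Set (Dis n)} (h : ∀ n, 0 < n → A n = B n) : WHP A ↔ WHP B :=
  ⟨fun hA => whp_mono hA ((eventually_gt_atTop 0).mono fun n hn => (h n hn).subset),
    fun hB => whp_mono hB ((eventually_gt_atTop 0).mono fun n hn => (h n hn).superset)⟩

theorem zero (n : ℕ) (β : ℝ) (g : Dis n) (hn : 0 < n) :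
    (∀ L, Like 1 β g L ↔ L = heat β g) ∧ Like 2 β g (metro β g) ∧
    step 1 (heat β g) = (n : ℝ)⁻¹ • ∑ i, Q β g i ∧
    ∀ K L, 1 ≤ K → Like K β g L → Stoch (step K L) ∧
      (∀ t, 0 ≤ t → Stoch (ker L t)) ∧
      (∀ f, L *ᵥ f = 0 → ∀ x y, f x = f y) ∧ IsLeast (spec L) (gap L) ∧ 0 < gap L ∧
      ∀ ε, 0 < ε → (∀ t, 0 ≤ t → (tv β g (ker L t) ≤ ε ↔ tmix β g L ε ≤ t)) ∧
        ∀ k, tv β g (step K L ^ k) ≤ ε ↔ kmix β g (step K L) ε ≤ k := by
  obtain ⟨h1, h2, -, h4⟩ := N150D.zero n β g hn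
  refine ⟨fun L => ?_, metro_eq β g ▸ like_of h2, ?_, fun K L hK hL => ?_⟩
  · rw [heat_eq, ← h1]
    exact ⟨fun h => h.to le_rfl, like_of⟩
  · have : (n : ℝ) ≠ 0 := by positivity
    rw [step, heat, one_mul, Finset.sum_sub_distrib, Finset.sum_const, Finset.card_univ,
      Fintype.card_fin, smul_sub, ← Nat.cast_smul_eq_nsmul ℝ, smul_smul, inv_mul_cancel₀ this,
      one_smul, add_sub_cancel]
  · have h := hL.to hK
    obtain ⟨a1, a2, a3, a4, a5⟩ := h4 K L h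
    rw [← gap_eq hn h] at a3 a4
    refine ⟨⟨a1.nonneg, a1.row⟩, fun t ht =>
      ⟨(h.1.ker_sto ht).nonneg, (h.1.ker_sto ht).row⟩, a2, a3, a4,
      fun ε hε => ?_⟩
    simp only [dist_le, tmix_eq, kmix_eq]
    exact a5 ε hε

theorem one (β : ℝ) (h0 : 0 ≤ β) :
    ((∃ C : ℝ, WHP fun n => {g | tmix β g (heat β g) (1 / 4) ≤ C * log n}) ↔ β < 1) ∧
    (β < 1 → ∃ c C : ℝ, 0 < c ∧ WHP fun n => {g |
      tmix β g (heat β g) (1 / 4) ∈ Icc (c * log n) (C * log n) ∧ (gap (heat β g))⁻¹ ∈ Icc c C}) ∧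
    (β = 1 → ∀ η : ℝ, 0 < η → WHP fun n => {g |
      tmix β g (heat β g) (1 / 4) ∈ Icc ((n : ℝ) ^ (2 / 3 - η)) ((n : ℝ) ^ (2 / 3 + η)) ∧
      (gap (heat β g))⁻¹ ∈ Icc ((n : ℝ) ^ (2 / 3 - η)) ((n : ℝ) ^ (2 / 3 + η))}) ∧
    (1 < β → ∃ c C : ℝ, 0 < c ∧ WHP fun n => {g |
      tmix β g (heat β g) (1 / 4) ∈ Icc (exp (c * n)) (exp (C * n)) ∧
      (gap (heat β g))⁻¹ ∈ Icc (exp (c * n)) (exp (C * n))}) := by
  obtain ⟨h1, h2, h3, h4⟩ := N150D.Asm.one β h0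
  refine ⟨?_, fun h => ?_, fun h η hη => ?_, fun h => ?_⟩
  · simp only [tmix_eq, heat_eq]
    exact h1
  · obtain ⟨c, C, hc, h⟩ := h2 h
    refine ⟨c, C, hc, (whp_congr fun n hn => ?_).2 h⟩
    simp only [gap_heat hn, tmix_eq]
    simp only [heat_eq]
  · refine (whp_congr fun n hn => ?_).2 (h3 h η hη)
    simp only [gap_heat hn, tmix_eq]
    simp only [heat_eq]
  · obtain ⟨c, C, hc, h⟩ := h4 h
    refine ⟨c, C, hc, (whp_congr fun n hn => ?_).2 h⟩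
    simp only [gap_heat hn, tmix_eq]
    simp only [heat_eq]

theorem three (hK : 1 ≤ K) (h0 : 0 ≤ β) (e0 : 0 < ε) (e1 : ε < 1 / 2)
    (F : ∀ n : ℕ, Dis n → Mat n) (hF : ∀ n g, Like K β g (F n g)) :
    ((∃ C : ℝ, WHP fun n => {g | tmix β g (F n g) ε ≤ C * log n}) ↔ β < 1) ∧
    ((∃ C : ℝ, WHP fun n => {g | (gap (F n g))⁻¹ ≤ C}) ↔ β < 1) ∧
    ((∃ C : ℝ, WHP fun n => {g | kmix β g (step K (F n g)) ε ≤ C * n * log n}) ↔ β < 1) := by
  obtain ⟨h1, h2, h3⟩ := N150D.Asm.fast_iff N150D.Asm.dc (one_pos.trans_le hK) h0 e0 e1 F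
    fun n g => (hF n g).to hK
  refine ⟨?_, Iff.trans (exists_congr fun C => whp_congr fun n hn => ?_) h2, ?_⟩
  · simp only [tmix_eq]
    exact h1
  · ext g
    rw [mem_ofPred_eq, mem_ofPred_eq, gap_eq hn ((hF n g).to hK)]
  · simp only [kmix_eq]
    exact h3

theorem two (K β ε : ℝ) (hK : 1 ≤ K) (h0 : 0 ≤ β) (e0 : 0 < ε) (e1 : ε < 1 / 2) :
    (β < 1 → ∃ c C : ℝ, 0 < c ∧ Unif K β ε fun n r t k =>
      r ∈ Icc c C ∧ t ≤ C * log n ∧ k ≤ C * log n) ∧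
    (β = 1 → ∃ C : ℝ, 0 < C ∧ ∀ η : ℝ, 0 < η → Unif K β ε fun n r t k => ∀ u ∈ [r, t, k],
      u ∈ Icc ((n : ℝ) ^ (2 / 3 : ℝ) / (C * log n ^ 4)) ((n : ℝ) ^ (2 / 3 + η))) ∧
    (1 < β → ∃ c : ℝ, 0 < c ∧ ∀ η : ℝ, 0 < η → Unif K β ε fun n r t k => ∀ u ∈ [r, t, k],
      u ∈ Icc (exp (c * n)) (exp ((2 * √(log 2) * (β - 1) + η) * n))) := by
  have hK0 := one_pos.trans_le hK
  refine ⟨fun h => ?_, ?_, fun h => ?_⟩
  · obtain ⟨c, C, hc, h⟩ := N150D.Asm.high N150D.Asm.dc hK0 h0 h e0 e1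
    exact ⟨c, C, hc, unif_of hK h⟩
  · rintro rfl
    obtain ⟨C, hC, h⟩ := N150D.Asm.crit N150D.Asm.dc hK0 e0 e1
    exact ⟨C, hC, fun η hη => unif_of hK (h η hη)⟩
  · obtain ⟨c, hc, h⟩ := N150D.Asm.slow N150D.Asm.dc hK0 h e0 e1
    exact ⟨c, hc, fun η hη => unif_of hK (h η hη)⟩

theorem four (β : ℝ) (h0 : 0 ≤ β) (h1 : β < 1) : ∃ c C : ℝ, 0 < c ∧ ∀ ε : ℝ, 0 < ε → ε < 1 →
    Unif 1 β ε fun n _ t k => ∀ u ∈ [t, k], u ∈ Icc (c * log n) (C * log n) := by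
  obtain ⟨c, C, hc, h⟩ := N150D.Asm.pre β h0 h1
  exact ⟨c, C, hc, fun ε e0 e1 => unif_of le_rfl (h ε e0 e1)⟩

theorem five (β : ℝ) (h0 : 0 ≤ β) : ∃ a : ℕ → ℝ, ∀ K ε : ℝ, 1 ≤ K → 0 < ε → ε < 1 / 2 →
    ∀ w : ℕ → ℝ, Tendsto w atTop atTop →
    Unif K β ε fun n r t k => ∀ u ∈ [r, t, k], |log u - a n| ≤ w n * √n := by
  obtain ⟨a, h⟩ := N150D.Self2.five h0 (N150D.self_gap β)
  exact ⟨a, fun K ε hK e0 e1 w hw => unif_of hK (h K ε e0 e1 w hw)⟩

end Vale.Agent.N150L
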