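import Mathlib

/-!
The zero-field Sherrington-Kirkpatrick measure and its single-flip dynamics: definitions.
-/

open MeasureTheory ProbabilityTheory Filter Topology

namespace Vale.Agent.N150L

/-- Configurations: `true` is the spin `+1`, `false` is the spin `-1`. -/
abbrev Cfg (n : ℕ) := Fin n → Bool

/-- Disorders `g_ij`, `i < j`. -/
abbrev Dis (n : ℕ) := {p : Fin n × Fin n // p.1 < p.2} → ℝ

/-- Kernels on the configurations. -/
abbrev Mat (n : ℕ) := Matrix (Cfg n) (Cfg n) ℝ

variable {n : ℕ}

/-- The value of a spin. -/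
def sp (b : Bool) : ℝ := if b then 1 else -1

/-- The Boltzmann weight `exp (β / √n ∑_{i<j} g_ij x_i x_j)`. -/
noncomputable def wt (β : ℝ) (g : Dis n) (x : Cfg n) : ℝ :=
  Real.exp (β / √n * ∑ p, g p * sp (x p.1.1) * sp (x p.1.2))

/-- The Gibbs measure `μ`. -/
noncomputable def mu (β : ℝ) (g : Dis n) (x : Cfg n) : ℝ := wt β g x / ∑ y, wt β g y

/-- The symmetric matrix `g_ij` with zero diagonal. -/
noncomputable def sym (g : Dis n) (i j : Fin n) : ℝ :=
  if h : i < j then g ⟨(i, j), h⟩ else if h : j < i then g ⟨(j, i), h⟩ else 0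

/-- The local field `h_i`. -/
noncomputable def field (β : ℝ) (g : Dis n) (x : Cfg n) (i : Fin n) : ℝ :=
  β / √n * ∑ j, sym g i j * sp (x j)

/-- The kernel `Q_i`: the spin `i` is set to `s` with probability `exp (s h_i) / (2 cosh h_i)`. -/
noncomputable def Q (β : ℝ) (g : Dis n) (i : Fin n) : Mat n := fun x y =>
  ∑ s : Bool, if y = Function.update x i s then
    Real.exp (sp s * field β g x i) / (2 * Real.cosh (field β g x i)) else 0

/-- The heat-bath generator `∑ i, (Q_i - I)`. -/
noncomputable def heat (β : ℝ) (g : Dis n) : Mat n := ∑ i, (Q β g i - 1)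

/-- The configuration `x` with the spin `i` flipped. -/
def flip (x : Cfg n) (i : Fin n) : Cfg n := Function.update x i (!x i)

/-- The Metropolis generator: the spin `i` flips at the rate `min 1 (μ (flip x i) / μ x)`. -/
noncomputable def metro (β : ℝ) (g : Dis n) : Mat n := fun x y =>
  ∑ i, min 1 (mu β g (flip x i) / mu β g x) *
    ((if y = flip x i then 1 else 0) - if y = x then 1 else 0)

/-- `L` has zero row sums, is reversible for `μ`, and its jump rates are within the factor `K` of
the heat-bath rates. -/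
def Like (K β : ℝ) (g : Dis n) (L : Mat n) : Prop :=
  (∀ x, ∑ y, L x y = 0) ∧ (∀ x y, mu β g x * L x y = mu β g y * L y x) ∧
    ∀ x y, x ≠ y → heat β g x y ≤ K * L x y ∧ L x y ≤ K * heat β g x y

/-- `P` is a stochastic matrix. -/
def Stoch (P : Mat n) : Prop := (∀ x y, 0 ≤ P x y) ∧ ∀ x, ∑ y, P x y = 1

/-- The kernel `P_t = exp (t L)`. -/
noncomputable def ker (L : Mat n) (t : ℝ) : Mat n := NormedSpace.exp (t • L)

/-- The transition matrix `I + L / (K n)` of one update attempt. -/
noncomputable def step (K : ℝ) (L : Mat n) : Mat n := 1 + (K * n)⁻¹ • L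

/-- The total variation distance to `μ` from the worst start. -/
noncomputable def tv (β : ℝ) (g : Dis n) (P : Mat n) : ℝ :=
  ⨆ x, 1 / 2 * ∑ y, |P x y - mu β g y|

/-- The `ε`-mixing time. -/
noncomputable def tmix (β : ℝ) (g : Dis n) (L : Mat n) (ε : ℝ) : ℝ :=
  sInf {t | 0 ≤ t ∧ tv β g (ker L t) ≤ ε}

/-- The `ε`-mixing time of the discrete chain with the transition matrix `P`. -/
noncomputable def kmix (β : ℝ) (g : Dis n) (P : Mat n) (ε : ℝ) : ℕ :=
  sInf {k | tv β g (P ^ k) ≤ ε}

/-- The nonzero spectrum of `-L`. -/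
def spec (L : Mat n) : Set ℝ := spectrum ℝ (-L) \ {0}

/-- The spectral gap. -/
noncomputable def gap (L : Mat n) : ℝ := sInf (spec L)

/-- The probability of `A n` under independent standard Gaussians tends to one. -/
def WHP (A : ∀ n, Set (Dis n)) : Prop :=
  Tendsto (fun n => Measure.pi (fun _ => gaussianReal 0 1) (A n)ᶜ) atTop (𝓝 0)

/-- With probability tending to one, for all `L` in the class `Like K β g`, the property `P` holds
for `n`, `1 / gap`, the `ε`-mixing time, and the `ε`-mixing number of attempts divided by `n`. -/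
def Unif (K β ε : ℝ) (P : ℕ → ℝ → ℝ → ℝ → Prop) : Prop :=
  WHP fun n => {g | ∀ L, Like K β g L →
    P n (gap L)⁻¹ (tmix β g L ε) (kmix β g (step K L) ε / n)}

end Vale.Agent.N150L
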