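import Mathlib
import Vale.Agent.Results.P150.AAClocks
import Vale.Agent.N150.Main
import Vale.Agent.N150.SlMain
import Vale.Agent.N150.SlClk

open Filter Topology

namespace Vale.Agent.N150L.OldFull

open Vale.Agent.P150 Vale.Agent.P150W

/-- The zero-field SK heat-bath dynamics driven by independent rate-one Poisson clocks; `mix` is its
mixing time and `gapL` the spectral gap of `-L`, `L = ∑ i (Q_i - I)`, on `L²(μ)`.
(0) For all `n`, `β` and disorders: the path exists and is unique almost surely and its kernel is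
`exp (t L)`; for `n ≥ 1`, `Q_i` is the heat-bath average, `L` is self-adjoint, its kernel consists
of the constants, the gap is the least nonzero point of the spectrum of `-L`; total variation,
mixing time and gap are those of the matrix semigroup and of the Rayleigh quotient; if the discrete
chain is mixed after `k` attempts, then `n t_mix ≤ 4 k + 6`. Then, w.h.p. over the disorder:
(1) for every fixed `β ≥ 0` the mixing time is `O(log n)`, the gap is bounded below, and the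
discrete chain mixes in `O(n log n)` attempts, each exactly when `β < 1`; (2) for `β < 1` the gap has
the order `1` and the mixing time the order `log n`; (3) at `β = 1` the mixing time and the inverse
gap are `n ^ (2/3 + o(1))`; (4) for every `β > 1` they lie between `exp (c n)` and `exp (R n)`;
(5) typical starts: at `β = 1` the starts within `1/2 - η` of equilibrium at the time `t` have mass
at most `C (log n) ^ 4 n ^ (-2/3) t / η + exp (- (log n) ^ 3)`, and for `β > 1`, with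
`A = n ^ (1/6) / (log n) ^ C`, the starts within `1/2 - exp (-A)` at a time `t ≤ exp A` have mass at
most `exp (-A)`. -/
theorem old_result :
    (∀ (n : ℕ) (β : ℝ) (g : Pairs n → ℝ),
      Dynamics (skJ β g) (fun _ => 0) ∧
      (∀ t, 0 ≤ t → ∀ x, tv (skJ β g) (fun _ => 0) t x = tvDist (skJ β g) (fun _ => 0) t x) ∧
      mix (skJ β g) (fun _ => 0) = tmix (skJ β g) (fun _ => 0) ∧
      (0 < n → Spectral (skJ β g) (fun _ => 0) ∧
        gapL (skJ β g) (fun _ => 0) = gap (skJ β g) (fun _ => 0) ∧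
        ∀ k : ℕ, (∀ x, tvStep (skJ β g) (fun _ => 0) k x ≤ 1 / 4) →
          n * mix (skJ β g) (fun _ => 0) ≤ 4 * k + 6)) ∧
    (∀ β : ℝ, 0 ≤ β →
      ((∃ C : ℝ, WHP (fun n => {g | mix (skJ β g) (fun _ => 0) ≤ C * Real.log n})) ↔ β < 1) ∧
      ((∃ c : ℝ, 0 < c ∧ WHP (fun _ => {g | c ≤ gapL (skJ β g) (fun _ => 0)})) ↔ β < 1) ∧
      ((∃ C : ℝ, WHP (fun n => {g | ∀ k : ℕ, C * n * Real.log n ≤ k →
        ∀ x, tvStep (skJ β g) (fun _ => 0) k x ≤ 1 / 4})) ↔ β < 1)) ∧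
    (∀ β : ℝ, 0 ≤ β → β < 1 → ∃ c C : ℝ, 0 < c ∧ 0 < C ∧ WHP (fun n => {g |
      c ≤ gapL (skJ β g) (fun _ => 0) ∧ gapL (skJ β g) (fun _ => 0) ≤ 1 ∧
      c * Real.log n ≤ mix (skJ β g) (fun _ => 0) ∧
      mix (skJ β g) (fun _ => 0) ≤ C * Real.log n ∧
      ∀ t, C * Real.log n ≤ t → ∀ x, tv (skJ β g) (fun _ => 0) t x ≤ 1 / 4})) ∧
    (∃ C : ℝ, 0 < C ∧ ∀ ε : ℝ, 0 < ε → WHP (fun n => {g |
      (n : ℝ) ^ (-(2 / 3 + ε)) ≤ gapL (skJ 1 g) (fun _ => 0) ∧
      gapL (skJ 1 g) (fun _ => 0) ≤ C * Real.log n ^ 4 * (n : ℝ) ^ (-(2 / 3 : ℝ)) ∧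
      Real.log 2 / (C * Real.log n ^ 4) * (n : ℝ) ^ (2 / 3 : ℝ) ≤ mix (skJ 1 g) (fun _ => 0) ∧
      mix (skJ 1 g) (fun _ => 0) ≤ (n : ℝ) ^ (2 / 3 + ε) ∧
      (∀ t, (n : ℝ) ^ (2 / 3 + ε) ≤ t → ∀ x, tv (skJ 1 g) (fun _ => 0) t x ≤ 1 / 4) ∧
      |Real.log (mix (skJ 1 g) (fun _ => 0)) / Real.log n - 2 / 3| ≤ ε ∧
      |Real.log (gapL (skJ 1 g) (fun _ => 0))⁻¹ / Real.log n - 2 / 3| ≤ ε})) ∧
    (∀ β : ℝ, 1 < β → ∃ c : ℝ, 0 < c ∧ ∀ ε : ℝ, 0 < ε → WHP (fun n => {g |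
      Real.exp (-((2 * √(Real.log 2) * (β - 1) + ε) * n)) ≤ gapL (skJ β g) (fun _ => 0) ∧
      gapL (skJ β g) (fun _ => 0) ≤ Real.exp (-(c * n)) ∧
      Real.exp (c * n) ≤ mix (skJ β g) (fun _ => 0) ∧
      mix (skJ β g) (fun _ => 0) ≤ Real.exp ((2 * √(Real.log 2) * (β - 1) + ε) * n)})) ∧
    (∃ C : ℝ, 0 < C ∧ WHP (fun n => {g | ∀ t η : ℝ, 0 ≤ t → 0 < η →
      (mu (skJ 1 g) (fun _ => 0)).real {x | tv (skJ 1 g) (fun _ => 0) t x < 1 / 2 - η} ≤
        C * Real.log n ^ 4 * (n : ℝ) ^ (-(2 / 3 : ℝ)) * t / η + Real.exp (-(Real.log n ^ 3))})) ∧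
    (∀ β : ℝ, 1 < β → ∃ C : ℝ, 0 < C ∧ WHP (fun n => {g | ∀ t : ℝ, 0 ≤ t →
      t ≤ Real.exp ((n : ℝ) ^ (1 / 6 : ℝ) / Real.log n ^ C) →
      (mu (skJ β g) (fun _ => 0)).real {x | tv (skJ β g) (fun _ => 0) t x <
        1 / 2 - Real.exp (-((n : ℝ) ^ (1 / 6 : ℝ) / Real.log n ^ C))} ≤
          Real.exp (-((n : ℝ) ^ (1 / 6 : ℝ) / Real.log n ^ C))})) :=
  ⟨Results.P150.AAClocks.result.1, Results.P150.AAClocks.result.2.1, Results.P150.AAClocks.result.2.2.1,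
    N150.crit_two N150.upFull (N150.lowFull_of H704.crit_full),
    fun _ hβ => N150.Slow.two_clk hβ (N150.Slow.slow_all hβ),
    H704.crit_full.imp fun _ h => ⟨h.1, N150.Slow.typ_clk h.2⟩,
    fun β hβ => (H281.slowL (β := β) (by linarith) (H281.momL hβ)).imp fun _ h =>
      ⟨h.1, N150.Slow.typ_clk' h.2⟩⟩

end Vale.Agent.N150L.OldFull
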